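import Vale.Agent.P073Z.A8a
import Vale.Agent.P073Z.SHELL.A
import Vale.Agent.P073Z.DISC2.Path

/-!
# Charts of PL manifolds, examples, invariance of domain in manifolds
-/

open Set Metric Topology Filter

namespace P073

variable {E F : Type} [NormedAddCommGroup E] [NormedSpace ℝ E]
  [NormedAddCommGroup F] [NormedSpace ℝ F]

/-- a small cube about any point is a ball -/
theorem conBall_closedBall {n : ℕ} (a : Fin n → ℝ) {r : ℝ} (hr : 0 < r) :
    ConBall n (closedBall a r) (sphere a r) := by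
  have h := (Sh.conBall_cube n hr).image
    (ConHomeo.translate a (locCone_closedBall_pi n r).conicalSet) Subset.rfl
  have e1 : (fun x => x + a) '' closedBall (0 : Fin n → ℝ) r = closedBall a r := by
    rw [image_add_right]; ext y; simp [sub_eq_add_neg]
  have e2 : (fun x => x + a) '' sphere (0 : Fin n → ℝ) r = sphere a r := by
    rw [image_add_right]; ext y; simp [mem_sphere_iff_norm, sub_eq_add_neg]
  rw [← e1, ← e2]
  exact h

/-- neighbourhoods are transported by a homeomorphism -/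
theorem ConHomeo.image_mem_nhdsWithin {X C : Set E} {Y : Set F} (φ : ConHomeo X Y) {x : E}
    (hx : x ∈ X) (hC : C ∈ 𝓝[X] x) : φ.toFun '' C ∈ 𝓝[Y] (φ.toFun x) := by
  have h1 : φ.invFun ⁻¹' C ∈ 𝓝[Y] (φ.toFun x) := by
    have h2 := (φ.cont_inv _ (φ.mapsTo hx)).tendsto_nhdsWithin φ.mapsTo_inv
    rw [φ.left_inv hx] at h2
    exact h2 hC
  filter_upwards [h1, self_mem_nhdsWithin] with y hy hyY using ⟨_, hy, φ.right_inv hyY⟩

/-- open charts of a PL manifold -/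
theorem PLMan.chart {n : ℕ} {X : Set E} (h : PLMan n X) {x : E} (hx : x ∈ X) :
    ∃ (O : Set E) (W : Set (Fin n → ℝ)) (_ : ConHomeo (X ∩ O) W),
      IsOpen O ∧ x ∈ O ∧ IsOpen W := by
  obtain ⟨C, B, hC, hxC, hCX, hn⟩ := h x hx
  obtain ⟨φ, hφ⟩ := hC.chart
  obtain ⟨O₁, hO₁, hxO₁, hsub⟩ := mem_nhdsWithin.1 hn
  have hO : IsOpen (O₁ \ B) := hO₁.sdiff hC.isCompact_bdry.isClosed
  have hXO : X ∩ (O₁ \ B) ⊆ C := fun y hy => hsub ⟨hy.2.1, hy.1⟩
  have hc : ConicalSet (X ∩ (O₁ \ B)) := by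
    have e : X ∩ (O₁ \ B) = C ∩ (O₁ \ B) :=
      Subset.antisymm (fun y hy => ⟨hXO hy, hy.2⟩) fun y hy => ⟨hCX hy.1, hy.2⟩
    rw [e]
    exact hC.conicalSet.inter (IsOpen.conicalSet hO)
  refine ⟨O₁ \ B, _, φ.restr hc hXO, hO, ⟨hxO₁, hxC.2⟩, ?_⟩
  have e : φ.toFun '' (X ∩ (O₁ \ B)) = ball 0 1 ∩ φ.invFun ⁻¹' O₁ := by
    ext w
    constructor
    · rintro ⟨y, hy, rfl⟩
      refine ⟨(hφ y (hXO hy)).1 hy.2.2, ?_⟩
      rw [mem_preimage, φ.left_inv (hXO hy)]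
      exact hy.2.1
    · rintro ⟨h1, h2⟩
      have h3 := φ.mapsTo_inv (ball_subset_closedBall h1)
      have h4 := φ.right_inv (ball_subset_closedBall h1)
      exact ⟨φ.invFun w, ⟨hCX h3, h2, (hφ _ h3).2 (h4.symm ▸ h1)⟩, h4⟩
  rw [e]
  exact (φ.cont_inv.mono ball_subset_closedBall).isOpen_inter_preimage isOpen_ball hO₁

/-- small balls in a set with a chart -/
theorem exists_ball_of_chart {n : ℕ} {X N : Set E} {W : Set (Fin n → ℝ)} (φ : ConHomeo N W)
    {x : E} (hx : x ∈ N) (hN : N ∈ 𝓝[X] x) (hW : W ∈ 𝓝 (φ.toFun x)) :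
    ∃ C B : Set E, ConBall n C B ∧ x ∈ C \ B ∧ C ⊆ N ∧ C ∈ 𝓝[X] x := by
  obtain ⟨r, hr, hb⟩ := nhds_basis_closedBall.mem_iff.1 hW
  have h0 : φ.toFun x ∈ closedBall (φ.toFun x) r := mem_closedBall_self hr.le
  refine ⟨_, _, (conBall_closedBall (φ.toFun x) hr).image φ.symm hb,
    ⟨⟨_, h0, φ.left_inv hx⟩, ?_⟩, ?_, ?_⟩
  · rintro ⟨w, hw, e⟩
    have h1 : w = φ.toFun x := by
      rw [← e]; exact (φ.right_inv (hb (sphere_subset_closedBall hw))).symm
    rw [h1, mem_sphere, dist_self] at hw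
    exact hr.ne hw
  · rintro _ ⟨w, hw, rfl⟩
    exact φ.mapsTo_inv (hb hw)
  · have h1 := φ.symm.image_mem_nhdsWithin (φ.mapsTo hx)
      (mem_nhdsWithin_of_mem_nhds (closedBall_mem_nhds (φ.toFun x) hr))
    rw [ConHomeo.symm_toFun, φ.left_inv hx] at h1
    exact nhdsWithin_le_of_mem hN h1

theorem plMan_of_chart {n : ℕ} {X : Set E} (h : ∀ x ∈ X, ∃ (N : Set E) (W : Set (Fin n → ℝ))
    (φ : ConHomeo N W), x ∈ N ∧ N ⊆ X ∧ N ∈ 𝓝[X] x ∧ W ∈ 𝓝 (φ.toFun x)) : PLMan n X := by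
  intro x hx
  obtain ⟨N, W, φ, h1, h2, h3, h4⟩ := h x hx
  obtain ⟨C, B, hC, h5, h6, h7⟩ := exists_ball_of_chart φ h1 h3 h4
  exact ⟨C, B, hC, h5, h6.trans h2, h7⟩

theorem plMan_open {n : ℕ} {U : Set (Fin n → ℝ)} (hU : IsOpen U) : PLMan n U :=
  plMan_of_chart fun _ hx => ⟨U, U, ConHomeo.refl (IsOpen.conicalSet hU), hx, Subset.rfl,
    self_mem_nhdsWithin, hU.mem_nhds hx⟩

theorem PLMan.image {n : ℕ} {X : Set E} {Y : Set F} (h : PLMan n X) (φ : ConHomeo X Y) :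
    PLMan n Y := by
  intro y hy
  obtain ⟨C, B, hC, hx, hCX, hn⟩ := h _ (φ.mapsTo_inv hy)
  have h1 := φ.image_mem_nhdsWithin (φ.mapsTo_inv hy) hn
  rw [φ.right_inv hy] at h1
  refine ⟨_, _, hC.image φ hCX, ⟨⟨_, hx.1, φ.right_inv hy⟩, ?_⟩,
    (image_mono hCX).trans φ.mapsTo.image_subset, h1⟩
  rintro ⟨z, hz, e⟩
  refine hx.2 ?_
  rw [← e, φ.left_inv (hCX (hC.1 hz))]
  exact hz

/-- arbitrarily small balls about the points of a manifold -/
theorem PLMan.small {n : ℕ} {X U : Set E} (h : PLMan n X) {x : E} (hx : x ∈ X)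
    (hU : U ∈ 𝓝[X] x) : ∃ C B : Set E, ConBall n C B ∧ x ∈ C \ B ∧ C ⊆ X ∩ U ∧ C ∈ 𝓝[X] x := by
  obtain ⟨O, W, φ, hO, hxO, hW⟩ := h.chart hx
  obtain ⟨O₁, hO₁, hxO₁, hsub⟩ := mem_nhdsWithin.1 hU
  have hN : X ∩ O ∩ O₁ ∈ 𝓝[X] x :=
    inter_mem (inter_mem_nhdsWithin X (hO.mem_nhds hxO))
      (mem_nhdsWithin_of_mem_nhds (hO₁.mem_nhds hxO₁))
  have h2 := φ.image_mem_nhdsWithin (C := X ∩ O ∩ O₁) ⟨hx, hxO⟩
    (nhdsWithin_mono x inter_subset_left hN)
  rw [(hW.nhdsWithin_eq (φ.mapsTo ⟨hx, hxO⟩))] at h2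
  obtain ⟨C, B, hC, h5, h6, h7⟩ := exists_ball_of_chart
    (φ.restr (φ.conicalSet_left.inter (IsOpen.conicalSet hO₁)) inter_subset_left)
    ⟨⟨hx, hxO⟩, hxO₁⟩ hN h2
  exact ⟨C, B, hC, h5, fun y hy => ⟨(h6 hy).1.1, hsub ⟨(h6 hy).2, (h6 hy).1.1⟩⟩, h7⟩

/-- a relatively open subset of a manifold is a manifold -/
theorem PLMan.of_nhds {n : ℕ} {X Y : Set E} (h : PLMan n X) (hY : Y ⊆ X)
    (hn : ∀ x ∈ Y, Y ∈ 𝓝[X] x) : PLMan n Y := by
  intro x hx
  obtain ⟨C, B, hC, h1, h2, h3⟩ := h.small (hY hx) (hn x hx)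
  exact ⟨C, B, hC, h1, h2.trans inter_subset_right, nhdsWithin_mono x hY h3⟩

theorem PLMan.inter_open {n : ℕ} {X U : Set E} (h : PLMan n X) (hU : IsOpen U) :
    PLMan n (X ∩ U) :=
  h.of_nhds inter_subset_left fun _ hx => inter_mem_nhdsWithin X (hU.mem_nhds hx.2)

theorem ConBall.plMan {n : ℕ} {C B : Set E} (h : ConBall n C B) : PLMan n (C \ B) := by
  obtain ⟨φ, hφ⟩ := h.chart
  have h1 := ConBall.int_eq φ hφ univ
  rw [inter_univ, preimage_univ, inter_univ] at h1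
  rw [← h1]
  exact (plMan_open isOpen_ball).image
    (φ.symm.restr (IsOpen.conicalSet isOpen_ball) ball_subset_closedBall)

/-- the boundary of the cube is a manifold: project along the given point -/
theorem plMan_sphere (n : ℕ) : PLMan n (sphere (0 : Fin (n + 1) → ℝ) 1) := by
  refine plMan_of_chart fun x hx => ?_
  have hx1 : ‖x‖ = 1 := mem_sphere_zero_iff_norm.1 hx
  obtain ⟨i, hi⟩ : ∃ i, |x i| = 1 := by
    exact ((Sh.norm_eq_iff one_pos).1 hx1).2
  have hii : x i * x i = 1 := by rw [← abs_mul_abs_self, hi, one_mul]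
  let τ : (Fin (n + 1) → ℝ) →L[ℝ] ℝ := x i • ContinuousLinearMap.proj i
  let π : (Fin (n + 1) → ℝ) →L[ℝ] (Fin n → ℝ) := ContinuousLinearMap.pi fun j =>
    ContinuousLinearMap.proj (i.succAbove j) - x (i.succAbove j) • τ
  have hτ : ∀ y, τ y = x i * y i := fun _ => rfl
  have hπ : ∀ y j, π y j = y (i.succAbove j) - x (i.succAbove j) * τ y := fun _ _ => rfl
  have hnorm : ∀ y, ‖y - τ y • x‖ = ‖π y‖ := by
    intro y
    refine le_antisymm ((pi_norm_le_iff_of_nonneg (norm_nonneg _)).2 fun k => ?_)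
      ((pi_norm_le_iff_of_nonneg (norm_nonneg _)).2 fun j => ?_)
    · refine Fin.succAboveCases i ?_ (fun j => ?_) k
      · have : (y - τ y • x) i = 0 := by
          simp only [Pi.sub_apply, Pi.smul_apply, smul_eq_mul, hτ]
          linear_combination (-y i) * hii
        rw [this, norm_zero]; exact norm_nonneg _
      · have : (y - τ y • x) (i.succAbove j) = π y j := by
          simp only [Pi.sub_apply, Pi.smul_apply, smul_eq_mul, hπ]; ring
        rw [this]; exact norm_le_pi_norm _ j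
    · have : π y j = (y - τ y • x) (i.succAbove j) := by
        simp only [Pi.sub_apply, Pi.smul_apply, smul_eq_mul, hπ]; ring
      rw [this]; exact norm_le_pi_norm _ _
  have hτx : τ x = 1 := hii
  have hπx : π x = 0 := by
    rw [← norm_eq_zero, ← hnorm, hτx, one_smul, sub_self, norm_zero]
  let N : Set (Fin (n + 1) → ℝ) := sphere 0 1 ∩ ({y | ‖π y‖ ≤ 1 / 2} ∩ {y | 0 ≤ τ y})
  have hN : IsCompact N := (isCompact_sphere _ _).inter_right
    ((isClosed_le (by fun_prop) continuous_const).inter (isClosed_le continuous_const τ.continuous))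
  have hNc : ConicalSet N := by
    refine ((locCone_sphere_pi _).inter (LocCone.inter ?_ ?_)).conicalSet
    · exact locCone_setOf_le (by fun_prop) (Sh.conicalOn_norm_pi.comp (conicalOn_clm π)
        (mapsTo_univ _ _) π.continuous.continuousOn) _
    · exact locCone_setOf_ge τ.continuous (conicalOn_clm τ) _
  have key : ∀ y ∈ N, ∀ y' ∈ N, π y = π y' → ¬ τ y < τ y' := by
    intro y hy y' hy' e hlt
    have hp : 0 < τ y' := hy.2.2.trans_lt hlt
    have h1 : y - τ y • x = y' - τ y' • x := by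
      rw [← sub_eq_zero, ← norm_eq_zero]
      have := hnorm (y - y')
      rw [map_sub π, e, sub_self, norm_zero, map_sub, sub_smul] at this
      rw [← this]; congr 1; abel
    have hs0 : 0 ≤ τ y / τ y' := div_nonneg hy.2.2 hp.le
    have hs1 : τ y / τ y' < 1 := (div_lt_one hp).2 hlt
    have h2 : y = (1 - τ y / τ y') • (y' - τ y' • x) + (τ y / τ y') • y' := by
      have h3 : (τ y / τ y') • τ y' • x = τ y • x := by
        rw [smul_smul, div_mul_cancel₀ _ hp.ne']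
      rw [sub_smul, one_smul, smul_sub, h3, ← h1]; abel
    have h4 := norm_add_le ((1 - τ y / τ y') • (y' - τ y' • x)) ((τ y / τ y') • y')
    rw [← h2, norm_smul, norm_smul, hnorm, mem_sphere_zero_iff_norm.1 hy.1,
      mem_sphere_zero_iff_norm.1 hy'.1, Real.norm_of_nonneg hs0,
      Real.norm_of_nonneg (by linarith)] at h4
    have h5 : ‖π y'‖ ≤ 1 / 2 := hy'.2.1
    nlinarith
  have hinj : InjOn π N := by
    intro y hy y' hy' e
    have h0 : τ y = τ y' :=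
      le_antisymm (not_lt.1 (key y' hy' y hy e.symm)) (not_lt.1 (key y hy y' hy' e))
    have := hnorm (y - y')
    rw [map_sub π, e, sub_self, norm_zero, map_sub, h0, sub_self, zero_smul, sub_zero,
      norm_eq_zero, sub_eq_zero] at this
    exact this
  obtain ⟨φ, hφ⟩ := Sh.exists_ofCompact hN π π.continuous.continuousOn hinj
    ((conicalOn_clm π).mono hNc (subset_univ _)) rfl
  have hxN : x ∈ N := ⟨hx, by simp [hπx], by simp [hτx]⟩
  refine ⟨N, _, φ, hxN, inter_subset_left, inter_mem_nhdsWithin _ (inter_mem ?_ ?_), ?_⟩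
  · refine mem_of_superset ((isOpen_lt (f := fun y => ‖π y‖) (g := fun _ => (1 / 2 : ℝ))
      (by fun_prop) continuous_const).mem_nhds (by simp [hπx])) fun y hy =>
        show ‖π y‖ ≤ 1 / 2 from le_of_lt hy
  · refine mem_of_superset ((isOpen_lt (f := fun _ => (0:ℝ)) (g := fun y => τ y)
      continuous_const τ.continuous).mem_nhds (by simp [hτx])) fun y hy =>
        show 0 ≤ τ y from le_of_lt hy
  · rw [hφ, hπx]
    refine mem_of_superset (closedBall_mem_nhds 0 (by norm_num : (0:ℝ) < 1 / 2)) fun w hw => ?_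
    rw [mem_closedBall_zero_iff] at hw
    let u : Fin (n + 1) → ℝ := Fin.insertNth i 0 w
    have hu : τ u = 0 := by simp [hτ, u]
    have hπu : π u = w := by
      funext j
      rw [hπ, hu]; simp [u]
    have hnu : ‖u‖ ≤ 1 / 2 := by
      have := hnorm u
      rw [hu, zero_smul, sub_zero, hπu] at this
      rw [this]; exact hw
    have hc : ContinuousOn (fun t : ℝ => ‖u + t • x‖) (Icc 0 2) := by fun_prop
    obtain ⟨t, ht, e⟩ := intermediate_value_Icc (by norm_num : (0:ℝ) ≤ 2) hc (a := 0) (b := 2)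
      (show (1:ℝ) ∈ _ from ⟨by simp only [zero_smul, add_zero]; linarith, by
        have h1 := norm_sub_le (u + (2:ℝ) • x) u
        rw [add_sub_cancel_left, norm_smul, hx1] at h1
        norm_num at h1 ⊢
        linarith⟩)
    have hw' : π (u + t • x) = w := by rw [map_add, map_smul, hπx, smul_zero, add_zero, hπu]
    refine ⟨u + t • x, ⟨mem_sphere_zero_iff_norm.2 e, ?_, ?_⟩, hw'⟩
    · show ‖π _‖ ≤ _
      rw [hw']; exact hw
    · show 0 ≤ τ _
      rw [map_add, map_smul, hu, hτx, zero_add, smul_eq_mul, mul_one]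
      exact ht.1

theorem ConSphere.plMan {n : ℕ} {S : Set E} (h : ConSphere n S) : PLMan n S :=
  let ⟨φ⟩ := h; (plMan_sphere n).image φ.symm

/-- invariance of domain with values in a manifold -/
theorem PLMan.iod {n : ℕ} {X : Set E} (h : PLMan n X) {V : Set (Fin n → ℝ)}
    {f : (Fin n → ℝ) → E} {v : Fin n → ℝ} (hV : V ∈ 𝓝 v) (hc : ContinuousOn f V)
    (hi : InjOn f V) (hm : MapsTo f V X) : f '' V ∈ 𝓝[X] (f v) := by
  obtain ⟨V₁, hV₁, hVo, hv⟩ := _root_.mem_nhds_iff.1 hV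
  obtain ⟨O, W, φ, hO, hxO, hW⟩ := h.chart (hm (hV₁ hv))
  have hV' : IsOpen (V₁ ∩ f ⁻¹' O) := (hc.mono hV₁).isOpen_inter_preimage hVo hO
  have hm' : MapsTo f (V₁ ∩ f ⁻¹' O) (X ∩ O) := fun y hy => ⟨hm (hV₁ hy.1), hy.2⟩
  have h1 : IsOpen ((φ.toFun ∘ f) '' (V₁ ∩ f ⁻¹' O)) :=
    P073.iod hV' (φ.cont.comp (hc.mono (inter_subset_left.trans hV₁)) hm')
      (φ.injOn.comp (hi.mono (inter_subset_left.trans hV₁)) hm')
  have h2 := φ.symm.image_mem_nhdsWithin (φ.mapsTo ⟨hm (hV₁ hv), hxO⟩)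
    (mem_nhdsWithin_of_mem_nhds (h1.mem_nhds ⟨v, ⟨hv, hxO⟩, rfl⟩))
  rw [ConHomeo.symm_toFun, φ.left_inv ⟨hm (hV₁ hv), hxO⟩] at h2
  refine mem_of_superset (nhdsWithin_le_of_mem
    (inter_mem_nhdsWithin X (hO.mem_nhds hxO)) h2) ?_
  rintro _ ⟨_, ⟨y, hy, rfl⟩, rfl⟩
  exact ⟨y, hV₁ hy.1, (φ.left_inv (hm' hy)).symm⟩

/-- invariance of domain between manifolds -/
theorem PLMan.iod' {n : ℕ} {X : Set E} {Y N : Set F} (h : PLMan n X) (hY : PLMan n Y)
    {f : F → E} {y : F} (hy : y ∈ Y) (hN : N ∈ 𝓝[Y] y) (hc : ContinuousOn f (Y ∩ N))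
    (hi : InjOn f (Y ∩ N)) (hm : MapsTo f (Y ∩ N) X) : f '' (Y ∩ N) ∈ 𝓝[X] (f y) := by
  obtain ⟨O, W, φ, hO, hyO, hW⟩ := hY.chart hy
  have h1 := φ.image_mem_nhdsWithin (C := Y ∩ O ∩ N) ⟨hy, hyO⟩
    (inter_mem self_mem_nhdsWithin (nhdsWithin_mono y inter_subset_left hN))
  rw [hW.nhdsWithin_eq (φ.mapsTo ⟨hy, hyO⟩)] at h1
  have hs : φ.toFun '' (Y ∩ O ∩ N) ⊆ W := (image_mono inter_subset_left).trans φ.mapsTo.image_subset
  have hm' : MapsTo φ.invFun (φ.toFun '' (Y ∩ O ∩ N)) (Y ∩ N) := by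
    rintro _ ⟨z, hz, rfl⟩
    rw [φ.left_inv hz.1]
    exact ⟨hz.1.1, hz.2⟩
  have h2 := h.iod (f := f ∘ φ.invFun) h1 (hc.comp (φ.cont_inv.mono hs) hm')
    (hi.comp (φ.symm.injOn.mono hs) hm') (hm.comp hm')
  rw [Function.comp, φ.left_inv ⟨hy, hyO⟩] at h2
  refine mem_of_superset h2 ?_
  rintro _ ⟨z, hz, rfl⟩
  exact ⟨_, hm' hz, rfl⟩

theorem PLMan.ball_nhds_iff {n : ℕ} {X C B : Set E} (h : PLMan n X) (hC : ConBall n C B)
    (hCX : C ⊆ X) {x : E} (hx : x ∈ C) : C ∈ 𝓝[X] x ↔ x ∉ B := by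
  constructor
  · intro hn
    obtain ⟨φ, hφ⟩ := hC.chart
    have h1 := (plMan_open isOpen_univ).iod' h (f := φ.toFun) (hCX hx) hn
      (φ.cont.mono inter_subset_right) (φ.injOn.mono inter_subset_right) (mapsTo_univ _ _)
    rw [nhdsWithin_univ] at h1
    have h2 : φ.toFun x ∈ interior (closedBall (0 : Fin n → ℝ) 1) := mem_interior_iff_mem_nhds.2
      (mem_of_superset h1 ((image_mono inter_subset_right).trans φ.mapsTo.image_subset))
    rw [interior_closedBall _ one_ne_zero] at h2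
    exact (hφ x hx).2 h2
  · intro hB
    have h1 := h.iod' hC.plMan (f := id) (N := univ) ⟨hx, hB⟩ univ_mem continuousOn_id
      (injOn_id _) fun y hy => hCX hy.1.1
    exact mem_of_superset h1 (by rintro _ ⟨y, hy, rfl⟩; exact hy.1.1)

theorem manex : MANEX :=
  ⟨plMan_open, ConSphere.plMan, ConBall.plMan, PLMan.inter_open, PLMan.image,
    fun h hC hCX _ hx => h.ball_nhds_iff hC hCX hx⟩

end P073
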